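import Vale.Agent.P092.H175.Frame
import Vale.Agent.P092.L.H553.Defs

/-!
P092 (helper175): block T2. Definition of the functions `f_t(g; b)`.
-/

namespace Vale.Agent.P092.L.H175

open Vale.Agent.P092.L.H553
open Vale.Agent.P092.H553 (hs)
open Vale.Agent.P092.H175
variable {G3 : Type} [Group G3] [Emb G3]

open Matrix Vale.Agent.P092.L.H553

/-- The function `f_t(g; b)` (`rA b = |b|²`). -/
noncomputable def ff (t1 t2 : ℝ) (g b : G3) : ℝ :=
  rA (g⁻¹ * b) / rB g + Real.exp (-t2) * (rA b - hs ((rm g)ᵀ * rm b) / rA g) +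
    Real.exp (-t1 - t2) * rA b

end Vale.Agent.P092.L.H175
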